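import Vale.Agent.P004.H503.Iface3

/-!
# P004: Fourier representation of a smooth function (`StFour`)
-/

open Real MeasureTheory Set
open scoped FourierTransform

namespace P004.H628

lemma iteratedDeriv_ofReal (k : ℝ → ℝ) : ∀ n : ℕ, ContDiff ℝ n k →
    iteratedDeriv n (fun x => (k x : ℂ)) = fun x => ((iteratedDeriv n k x : ℝ) : ℂ) := by
  intro n
  induction n with
  | zero => intro _; simp
  | succ n ih =>
    intro h
    have h1 : ContDiff ℝ n k := h.of_le (by exact_mod_cast Nat.le_succ n)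
    rw [iteratedDeriv_succ, ih h1, iteratedDeriv_succ]
    ext x
    have h2 : Differentiable ℝ (iteratedDeriv n k) :=
      h.differentiable_iteratedDeriv n (by exact_mod_cast Nat.lt_succ_self n)
    exact (h2 x).hasDerivAt.ofReal_comp.deriv

lemma pow_aux (n : ℕ) (x : ℝ) (hx : 0 ≤ x) : (1 + x) ^ n ≤ 2 ^ n * (1 + x ^ n) := by
  rcases le_total x 1 with h | h
  · calc (1 + x) ^ n ≤ 2 ^ n := pow_le_pow_left₀ (by linarith) (by linarith) n
      _ ≤ 2 ^ n * (1 + x ^ n) := le_mul_of_one_le_right (by positivity)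
          (by have := pow_nonneg hx n; linarith)
  · calc (1 + x) ^ n ≤ (2 * x) ^ n := pow_le_pow_left₀ (by linarith) (by linarith) n
      _ = 2 ^ n * x ^ n := by rw [mul_pow]
      _ ≤ 2 ^ n * (1 + x ^ n) := by gcongr; linarith

theorem four_aux : StFour := by
  intro B
  refine ⟨2 ^ (B + 2), one_le_pow₀ (by norm_num), ?_⟩
  intro w I₀ I₁ k hw hk hint h0 h1
  set f : ℝ → ℂ := fun x => (k x : ℂ) with hf
  have hfc : ContDiff ℝ (B + 2 : ℕ) f := Complex.ofRealCLM.contDiff.comp hk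
  have hder : ∀ n ≤ B + 2, iteratedDeriv n f = fun x => ((iteratedDeriv n k x : ℝ) : ℂ) := by
    intro n hn
    exact iteratedDeriv_ofReal k n (hk.of_le (by exact_mod_cast hn))
  have hfint : ∀ n ≤ B + 2, Integrable (iteratedDeriv n f) := by
    intro n hn
    rw [hder n hn]
    exact (hint n hn).ofReal
  have hfi : Integrable f := by simpa using hfint 0 (Nat.zero_le _)
  set F : ℝ → ℂ := 𝓕 f with hF
  have hFc : Continuous F := by
    have := VectorFourier.fourierIntegral_continuous (e := Real.fourierChar) (μ := volume)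
      (L := innerₗ ℝ) Real.continuous_fourierChar continuous_inner hfi
    exact this
  have hF0 : ∀ t, ‖F t‖ ≤ I₀ := by
    intro t
    refine le_trans (VectorFourier.norm_fourierIntegral_le_integral_norm _ _ _ _ _) ?_
    simpa [hf] using h0
  have hF1 : ∀ t, (2 * π * |t|) ^ (B + 2) * ‖F t‖ ≤ I₁ := by
    intro t
    have h2 : 𝓕 (iteratedDeriv (B + 2) f) t = (2 * π * Complex.I * t) ^ (B + 2) • F t := by
      have := Real.fourier_iteratedDeriv (f := f) (N := ((B + 2 : ℕ) : ℕ∞)) (n := B + 2)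
        (by exact_mod_cast hfc) (fun n hn => hfint n (by exact_mod_cast hn)) (by rfl)
      exact congrFun this t
    have h3 : ‖𝓕 (iteratedDeriv (B + 2) f) t‖ ≤ I₁ := by
      refine le_trans (VectorFourier.norm_fourierIntegral_le_integral_norm _ _ _ _ _) ?_
      rw [hder (B + 2) le_rfl]
      simpa using h1
    rw [h2] at h3
    simpa [norm_smul, abs_of_pos pi_pos] using h3
  have hpi : (0 : ℝ) < 2 * π := by positivity
  have hpc : ((2 * π : ℝ) : ℂ) ≠ 0 := by exact_mod_cast hpi.ne'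
  have hI₀ : 0 ≤ I₀ := le_trans (norm_nonneg _) (hF0 0)
  have hI₁ : 0 ≤ I₁ := le_trans (by positivity) (hF1 0)
  set g : ℝ → ℂ := fun τ => ((2 * π : ℝ) : ℂ)⁻¹ * F (τ * (2 * π)⁻¹) with hg
  have hgc : Continuous g := by
    refine continuous_const.mul (hFc.comp (continuous_id.mul continuous_const))
  have hgn : ∀ τ, ‖g τ‖ = (2 * π)⁻¹ * ‖F (τ * (2 * π)⁻¹)‖ := by
    intro τ
    simp [hg, abs_of_pos pi_pos]
  have key : ∀ τ, ‖g τ‖ * (1 + |τ| * w) ^ B ≤
      (2 ^ (B + 2) * (2 * π)⁻¹ * (I₀ + w ^ (B + 2) * I₁)) * (1 + (τ * w) ^ 2)⁻¹ := by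
    intro τ
    have e1 : ‖g τ‖ ≤ (2 * π)⁻¹ * I₀ := by
      rw [hgn]; gcongr; exact hF0 _
    have e2 : |τ| ^ (B + 2) * ‖g τ‖ ≤ (2 * π)⁻¹ * I₁ := by
      have := hF1 (τ * (2 * π)⁻¹)
      rw [abs_mul, abs_of_pos (inv_pos.mpr hpi), show 2 * π * (|τ| * (2 * π)⁻¹) = |τ| by
        field_simp] at this
      rw [hgn]
      calc |τ| ^ (B + 2) * ((2 * π)⁻¹ * ‖F (τ * (2 * π)⁻¹)‖)
          = (2 * π)⁻¹ * (|τ| ^ (B + 2) * ‖F (τ * (2 * π)⁻¹)‖) := by ring
        _ ≤ _ := by gcongr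
    have e3 : (1 + |τ| * w) ^ (B + 2) * ‖g τ‖ ≤
        2 ^ (B + 2) * (2 * π)⁻¹ * (I₀ + w ^ (B + 2) * I₁) := by
      calc (1 + |τ| * w) ^ (B + 2) * ‖g τ‖
          ≤ (2 ^ (B + 2) * (1 + (|τ| * w) ^ (B + 2))) * ‖g τ‖ := by
            gcongr
            exact pow_aux _ _ (by positivity)
        _ = 2 ^ (B + 2) * (‖g τ‖ + w ^ (B + 2) * (|τ| ^ (B + 2) * ‖g τ‖)) := by
            rw [mul_pow]; ring
        _ ≤ 2 ^ (B + 2) * ((2 * π)⁻¹ * I₀ + w ^ (B + 2) * ((2 * π)⁻¹ * I₁)) := by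
            gcongr
        _ = _ := by ring
    have e4 : (1 + (τ * w) ^ 2) ≤ (1 + |τ| * w) ^ 2 := by
      have : (τ * w) ^ 2 = (|τ| * w) ^ 2 := by rw [mul_pow, mul_pow, sq_abs]
      rw [this]
      have h5 : 0 ≤ |τ| * w := by positivity
      nlinarith
    rw [← div_eq_mul_inv, le_div_iff₀ (by positivity)]
    calc ‖g τ‖ * (1 + |τ| * w) ^ B * (1 + (τ * w) ^ 2)
        ≤ ‖g τ‖ * (1 + |τ| * w) ^ B * (1 + |τ| * w) ^ 2 := by gcongr
      _ = (1 + |τ| * w) ^ (B + 2) * ‖g τ‖ := by ring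
      _ ≤ _ := e3
  have hmi : Integrable (fun τ : ℝ => (1 + (τ * w) ^ 2)⁻¹) := by
    exact (integrable_inv_one_add_sq).comp_mul_right' hw.ne'
  have hmi2 : Integrable (fun τ : ℝ =>
      (2 ^ (B + 2) * (2 * π)⁻¹ * (I₀ + w ^ (B + 2) * I₁)) * (1 + (τ * w) ^ 2)⁻¹) :=
    hmi.const_mul _
  have hGi : Integrable (fun τ => ‖g τ‖ * (1 + |τ| * w) ^ B) := by
    refine hmi2.mono' ?_ ?_
    · exact (hgc.norm.mul ((continuous_const.add
        (continuous_abs.mul continuous_const)).pow B)).aestronglyMeasurable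
    · refine Filter.Eventually.of_forall fun τ => ?_
      rw [Real.norm_of_nonneg (by positivity)]
      exact key τ
  have hgi : Integrable g := by
    refine hGi.mono' hgc.aestronglyMeasurable ?_
    refine Filter.Eventually.of_forall fun τ => ?_
    refine le_mul_of_one_le_right (norm_nonneg _) (one_le_pow₀ ?_)
    have : 0 ≤ |τ| * w := by positivity
    linarith
  have hFi : Integrable F := by
    have h6 : Integrable (fun t : ℝ => g (t * (2 * π))) := hgi.comp_mul_right' hpi.ne'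
    have h7 : (fun t : ℝ => ((2 * π : ℝ) : ℂ) * g (t * (2 * π))) = F := by
      ext t
      simp only [hg]
      rw [← mul_assoc, mul_inv_cancel₀ hpc, one_mul, mul_assoc, mul_inv_cancel₀ hpi.ne', mul_one]
    rw [← h7]
    exact h6.const_mul _
  refine ⟨g, hgc, hgi, ?_, hGi, ?_⟩
  · intro x
    have h8 : 𝓕⁻ (𝓕 f) x = f x :=
      hfi.fourierInv_fourier_eq hFi (hfc.continuous.continuousAt)
    rw [← show f x = (k x : ℂ) from rfl, ← h8, Real.fourierInv_eq']
    have h9 := MeasureTheory.Measure.integral_comp_mul_right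
      (fun t : ℝ => Complex.exp ((2 * π * (t * x) : ℝ) * Complex.I) * F t) (2 * π)⁻¹
    rw [inv_inv, abs_of_pos hpi] at h9
    have h10 : (∫ v : ℝ, Complex.exp ((2 * π * (v * x) : ℝ) * Complex.I) * F v) =
        ((2 * π : ℝ) : ℂ)⁻¹ * ∫ τ : ℝ, Complex.exp ((2 * π * (τ * (2 * π)⁻¹ * x) : ℝ) * Complex.I) *
          F (τ * (2 * π)⁻¹) := by
      rw [h9, Complex.real_smul, ← mul_assoc, inv_mul_cancel₀ hpc, one_mul]
    have h11 : (∫ v : ℝ, Complex.exp (((2 * π * inner ℝ v x : ℝ) : ℂ) * Complex.I) • (𝓕 f) v) =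
        ∫ v : ℝ, Complex.exp ((2 * π * (v * x) : ℝ) * Complex.I) * F v := by
      refine integral_congr_ae (Filter.Eventually.of_forall fun v => ?_)
      simp [hF, mul_comm]
    rw [h11, h10, ← integral_const_mul]
    refine integral_congr_ae (Filter.Eventually.of_forall fun τ => ?_)
    have h12 : 2 * π * (τ * (2 * π)⁻¹ * x) = τ * x := by field_simp
    simp only [hg]
    rw [h12]
    push_cast
    ring
  · calc (∫ τ, ‖g τ‖ * (1 + |τ| * w) ^ B)
        ≤ ∫ τ, (2 ^ (B + 2) * (2 * π)⁻¹ * (I₀ + w ^ (B + 2) * I₁)) * (1 + (τ * w) ^ 2)⁻¹ :=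
          integral_mono hGi hmi2 key
      _ = (2 ^ (B + 2) * (2 * π)⁻¹ * (I₀ + w ^ (B + 2) * I₁)) * (w⁻¹ * π) := by
          rw [integral_const_mul, MeasureTheory.Measure.integral_comp_mul_right
            (fun y : ℝ => (1 + y ^ 2)⁻¹) w, integral_univ_inv_one_add_sq,
            abs_of_pos (inv_pos.mpr hw)]
          rfl
      _ = 2 ^ (B + 2) * ((I₀ / w + w ^ (B + 1) * I₁) / 2) := by
          field_simp
          ring
      _ ≤ 2 ^ (B + 2) * (I₀ / w + w ^ (B + 1) * I₁) := by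
          gcongr
          have : 0 ≤ I₀ / w + w ^ (B + 1) * I₁ := by positivity
          linarith

end P004.H628

namespace P004

/-- Module F : Fourier representation of a smooth function. -/
theorem pfFour : StFour := H628.four_aux

end P004
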